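import Mathlib

/-!
P168: three elementary tools: concentration of the slope of a random convex function, Taylor series
from a bound on all derivatives, and averages over random signs.
-/

namespace Vale.Agent.P168

open MeasureTheory Set Filter
open scoped Topology

/-! ### Convex functions -/

/-- The chord of a function with monotone derivative lies between the slopes at the ends. -/
theorem chord_bounds {f f1 : ℝ → ℝ} (hd : ∀ t, HasDerivAt f (f1 t) t) (hm : Monotone f1) {x y : ℝ}
    (hxy : x ≤ y) : f1 x * (y - x) ≤ f y - f x ∧ f y - f x ≤ f1 y * (y - x) := by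
  rcases eq_or_lt_of_le hxy with rfl | h
  · simp
  obtain ⟨c, hc, he⟩ := exists_hasDerivAt_eq_slope f f1 h
    (continuous_iff_continuousAt.2 fun t => (hd t).continuousAt).continuousOn fun t _ => hd t
  have he' : f y - f x = f1 c * (y - x) := by
    rw [he, div_mul_cancel₀ _ (sub_ne_zero.2 h.ne')]
  rw [he']
  exact ⟨mul_le_mul_of_nonneg_right (hm hc.1.le) (by linarith),
    mul_le_mul_of_nonneg_right (hm hc.2.le) (by linarith)⟩

/-- The slope of a random convex function is close to its mean, on average over an interval, as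
soon as its values are close to their means. -/
theorem slope_concentration {Ω : Type*} [MeasurableSpace Ω] (μ : Measure Ω) [IsProbabilityMeasure μ]
    (f f1 : Ω → ℝ → ℝ) {a b h L D : ℝ} (hab : a ≤ b) (hh : 0 < h)
    (hd : ∀ w t, HasDerivAt (f w) (f1 w t) t) (hmono : ∀ w, Monotone (f1 w))
    (hbd : ∀ w t, |f1 w t| ≤ L) (hfi : ∀ t, Integrable (fun w => f w t) μ)
    (hf1 : ∀ t, Measurable fun w => f1 w t)
    (hD : ∀ t ∈ Icc (a - h) (b + h), ∫ w, |f w t - ∫ v, f v t ∂μ| ∂μ ≤ D) :
    ∫ t in a..b, (∫ w, |f1 w t - ∫ v, f1 v t ∂μ| ∂μ) ≤ 3 * (b - a) * D / h + 4 * L * h := by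
  have hL : 0 ≤ L := by
    obtain ⟨w⟩ := nonempty_of_isProbabilityMeasure μ
    exact (abs_nonneg _).trans (hbd w a)
  have hi : ∀ t, Integrable (fun w => f1 w t) μ := fun t =>
    Integrable.of_bound (hf1 t).aestronglyMeasurable L (ae_of_all _ fun w => hbd w t)
  set φ : ℝ → ℝ := fun t => ∫ v, f1 v t ∂μ with hφ
  set F : ℝ → ℝ := fun t => ∫ v, f v t ∂μ with hF
  have hφm : Monotone φ := fun s t hst => integral_mono (hi s) (hi t) fun w => hmono w hst
  have hφb : ∀ t, |φ t| ≤ L := fun t => by
    have := norm_integral_le_of_norm_le_const (μ := μ) (f := fun v => f1 v t) (C := L)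
      (ae_of_all _ fun w => hbd w t)
    simpa [probReal_univ] using this
  set G : ℝ → ℝ := fun t => ∫ w, |f1 w t - φ t| ∂μ with hG
  -- `G` is a difference of monotone functions
  set M : ℝ → ℝ := fun t => ∫ w, max (f1 w t) (φ t) ∂μ with hM
  have hiM : ∀ t, Integrable (fun w => max (f1 w t) (φ t)) μ := fun t =>
    (hi t).sup (integrable_const _)
  have hMm : Monotone M := fun s t hst =>
    integral_mono (hiM s) (hiM t) fun w => max_le_max (hmono w hst) (hφm hst)
  have hGeq : ∀ t, G t = 2 * M t - 2 * φ t := fun t => by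
    have e : ∀ w, |f1 w t - φ t| = 2 * max (f1 w t) (φ t) - (f1 w t + φ t) := fun w => by
      rcases le_total (f1 w t) (φ t) with h1 | h1
      · rw [max_eq_right h1, abs_of_nonpos (by linarith)]; ring
      · rw [max_eq_left h1, abs_of_nonneg (by linarith)]; ring
    simp only [hG]
    simp only [e]
    rw [integral_sub ((hiM t).const_mul 2) ((hi t).fun_add (integrable_const _)),
      integral_const_mul, integral_add (hi t) (integrable_const _), integral_const, probReal_univ,
      one_smul]
    simp only [hM, hφ]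
    ring
  have hGint : IntervalIntegrable G volume a b := by
    rw [show G = fun t => 2 * M t - 2 * φ t from funext hGeq]
    exact (hMm.intervalIntegrable.const_mul 2).sub (hφm.intervalIntegrable.const_mul 2)
  -- the pointwise bound
  have key : ∀ t ∈ Icc a b, G t ≤ 3 * D / h + (φ (t + h) - φ (t - h)) := by
    intro t ht
    have id : ∀ s, Integrable (fun w => |f w s - F s|) μ := fun s =>
      ((hfi s).sub (integrable_const _)).abs
    have up : F (t + h) - F t ≤ φ (t + h) * h := by
      simp only [hF, hφ]
      rw [← integral_sub (hfi _) (hfi _), ← integral_mul_const]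
      refine integral_mono ((hfi _).sub (hfi _)) ((hi _).mul_const _) fun w => ?_
      have := (chord_bounds (hd w) (hmono w) (show t ≤ t + h by linarith)).2
      simpa using this
    have dn : φ (t - h) * h ≤ F t - F (t - h) := by
      simp only [hF, hφ]
      rw [← integral_sub (hfi _) (hfi _), ← integral_mul_const]
      refine integral_mono ((hi _).mul_const _) ((hfi _).sub (hfi _)) fun w => ?_
      have := (chord_bounds (hd w) (hmono w) (show t - h ≤ t by linarith)).1
      simpa using this
    have pw : ∀ w, |f1 w t - φ t| ≤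
        (|f w (t + h) - F (t + h)| + |f w t - F t| + |f w (t - h) - F (t - h)|) / h
          + (φ (t + h) - φ (t - h)) := by
      intro w
      have h1 := (chord_bounds (hd w) (hmono w) (show t ≤ t + h by linarith)).1
      have h2 := (chord_bounds (hd w) (hmono w) (show t - h ≤ t by linarith)).2
      rw [add_sub_cancel_left] at h1
      rw [sub_sub_cancel] at h2
      have h3 := mul_le_mul_of_nonneg_right (hφm (show t - h ≤ t by linarith)) hh.le
      have h4 := mul_le_mul_of_nonneg_right (hφm (show t ≤ t + h by linarith)) hh.le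
      have a1 := le_abs_self (f w (t + h) - F (t + h))
      have a2 := neg_abs_le (f w t - F t)
      have a3 := le_abs_self (f w t - F t)
      have a4 := neg_abs_le (f w (t - h) - F (t - h))
      have a7 := le_abs_self (f w (t - h) - F (t - h))
      have a8 := neg_abs_le (f w (t + h) - F (t + h))
      have a5 := abs_nonneg (f w (t + h) - F (t + h))
      have a6 := abs_nonneg (f w (t - h) - F (t - h))
      rw [div_add' _ _ _ hh.ne', le_div_iff₀ hh]
      rcases le_total (f1 w t) (φ t) with hle | hle
      · rw [abs_of_nonpos (by linarith)]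
        linarith
      · rw [abs_of_nonneg (by linarith)]
        linarith
    calc G t ≤ ∫ w, ((|f w (t + h) - F (t + h)| + |f w t - F t| + |f w (t - h) - F (t - h)|) / h
          + (φ (t + h) - φ (t - h))) ∂μ :=
          integral_mono ((hi t).sub (integrable_const _)).abs
            (((((id _).fun_add (id _)).fun_add (id _)).div_const h).fun_add (integrable_const _)) pw
      _ ≤ 3 * D / h + (φ (t + h) - φ (t - h)) := by
          rw [integral_add ((((id _).fun_add (id _)).fun_add (id _)).div_const h) (integrable_const _),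
            integral_div, integral_add ((id _).fun_add (id _)) (id _), integral_add (id _) (id _),
            integral_const, probReal_univ, one_smul]
          refine add_le_add (div_le_div_of_nonneg_right ?_ hh.le) le_rfl
          have d1 := hD (t + h) ⟨by linarith [ht.1], by linarith [ht.2]⟩
          have d2 := hD t ⟨by linarith [ht.1], by linarith [ht.2]⟩
          have d3 := hD (t - h) ⟨by linarith [ht.1], by linarith [ht.2]⟩
          linarith
  have hsh : ∀ c x y : ℝ, IntervalIntegrable (fun t => φ (t + c)) volume x y := fun c x y =>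
    Monotone.intervalIntegrable fun s t hst => hφm (by linarith)
  have hii : ∀ x y, IntervalIntegrable φ volume x y := fun x y => hφm.intervalIntegrable
  have hint : IntervalIntegrable (fun t => φ (t + h) - φ (t - h)) volume a b := by
    simpa only [← sub_eq_add_neg] using (hsh h a b).sub (hsh (-h) a b)
  have hsmall : ∀ c, |∫ t in (c - h)..(c + h), φ t| ≤ L * (2 * h) := fun c => by
    have := intervalIntegral.norm_integral_le_of_norm_le_const (a := c - h) (b := c + h) (f := φ)
      (C := L) fun t _ => hφb t
    rwa [show |c + h - (c - h)| = 2 * h by rw [show c + h - (c - h) = 2 * h by ring,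
      abs_of_pos (by linarith)], Real.norm_eq_abs] at this
  calc ∫ t in a..b, G t ≤ ∫ t in a..b, (3 * D / h + (φ (t + h) - φ (t - h))) :=
        intervalIntegral.integral_mono_on hab hGint (intervalIntegrable_const.add hint) key
    _ ≤ 3 * (b - a) * D / h + 4 * L * h := by
        rw [intervalIntegral.integral_add intervalIntegrable_const hint, intervalIntegral.integral_const,
          smul_eq_mul]
        have e1 : ∫ t in a..b, (φ (t + h) - φ (t - h)) =
            (∫ t in (b - h)..(b + h), φ t) - ∫ t in (a - h)..(a + h), φ t := by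
          rw [intervalIntegral.integral_sub (hsh h a b) (by simpa only [← sub_eq_add_neg] using hsh (-h) a b),
            intervalIntegral.integral_comp_add_right φ h, intervalIntegral.integral_comp_sub_right φ h]
          rw [← intervalIntegral.integral_add_adjacent_intervals (hii (a + h) (b - h)) (hii (b - h) (b + h)),
            ← intervalIntegral.integral_add_adjacent_intervals (hii (a - h) (a + h)) (hii (a + h) (b - h))]
          ring
        rw [e1]
        have n1 := (abs_le.1 (hsmall b)).2
        have n2 := (abs_le.1 (hsmall a)).1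
        have e2 : (b - a) * (3 * D / h) = 3 * (b - a) * D / h := by ring
        linarith

/-! ### Taylor series -/

/-- The Taylor polynomial at a moving base point, evaluated at `1`. -/
theorem hasDerivAt_taylor {G : ℕ → ℝ → ℝ} (n : ℕ) {t : ℝ}
    (hG : ∀ i ≤ n, HasDerivAt (G i) (G (i + 1) t) t) :
    HasDerivAt (fun s => ∑ i ∈ Finset.range (n + 1), G i s * (1 - s) ^ i / i.factorial)
      (G (n + 1) t * (1 - t) ^ n / n.factorial) t := by
  induction n with
  | zero => simpa using hG 0 le_rfl
  | succ n ih =>
    have h1 := ih fun i hi => hG i (hi.trans (Nat.le_succ n))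
    have h2 : HasDerivAt (fun s : ℝ => 1 - s) (-1) t := by simpa using (hasDerivAt_id t).const_sub 1
    have h3 := ((hG (n + 1) le_rfl).mul (h2.pow (n + 1))).div_const ((n + 1).factorial : ℝ)
    have h4 := h1.add h3
    have hfun : (fun s => ∑ i ∈ Finset.range (n + 1 + 1), G i s * (1 - s) ^ i / i.factorial) =
        fun s => (∑ i ∈ Finset.range (n + 1), G i s * (1 - s) ^ i / i.factorial) +
          G (n + 1) s * (1 - s) ^ (n + 1) / (n + 1).factorial := by
      funext s; rw [Finset.sum_range_succ]
    rw [hfun]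
    refine h4.congr_deriv ?_
    simp only [Pi.pow_apply, Nat.factorial_succ, Nat.cast_mul, Nat.add_sub_cancel]
    push_cast
    field_simp
    ring

theorem taylor_remainder {G : ℕ → ℝ → ℝ} (n : ℕ)
    (hG : ∀ i ≤ n, ∀ t ∈ Icc (0 : ℝ) 1, HasDerivAt (G i) (G (i + 1) t) t) {B : ℝ}
    (hB : ∀ t ∈ Icc (0 : ℝ) 1, |G (n + 1) t * (1 - t) ^ n / n.factorial| ≤ B) :
    |G 0 1 - ∑ i ∈ Finset.range (n + 1), G i 0 / i.factorial| ≤ B := by
  have h := norm_image_sub_le_of_norm_deriv_le_segment_01'
    (f := fun s => ∑ i ∈ Finset.range (n + 1), G i s * (1 - s) ^ i / i.factorial)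
    (f' := fun t => G (n + 1) t * (1 - t) ^ n / n.factorial) (C := B)
    (fun t ht => (hasDerivAt_taylor n fun i hi => hG i hi t ht).hasDerivWithinAt)
    (fun t ht => hB t (Ico_subset_Icc_self ht))
  have e : ∑ i ∈ Finset.range (n + 1), G i 1 * (1 - 1) ^ i / (i.factorial : ℝ) = G 0 1 := by
    rw [Finset.sum_range_succ', Finset.sum_eq_zero fun i _ => by simp]
    simp
  rw [e, Real.norm_eq_abs] at h
  simpa using h

/-- A series representation from a geometric bound on the Cauchy remainder. -/
theorem hasSum_taylor {G : ℕ → ℝ → ℝ}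
    (hG : ∀ n, ∀ t ∈ Icc (0 : ℝ) 1, HasDerivAt (G n) (G (n + 1) t) t) {A q : ℝ} (hq0 : 0 ≤ q)
    (hq : q < 1)
    (hB : ∀ n, ∀ t ∈ Icc (0 : ℝ) 1, |G (n + 1) t| * (1 - t) ^ n ≤ n.factorial * A * q ^ n) :
    HasSum (fun n => G n 0 / n.factorial) (G 0 1) := by
  have hfac : ∀ n : ℕ, (0 : ℝ) < n.factorial := fun n => by exact_mod_cast n.factorial_pos
  have hr : ∀ n, |G 0 1 - ∑ i ∈ Finset.range (n + 1), G i 0 / i.factorial| ≤ A * q ^ n := fun n =>
    taylor_remainder n (fun i _ => hG i) fun t ht => by
      rw [abs_div, abs_mul, abs_pow, abs_of_nonneg (show (0 : ℝ) ≤ 1 - t by linarith [ht.2]),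
        abs_of_pos (hfac n), div_le_iff₀ (hfac n)]
      linarith [hB n t ht]
  have hsum : Summable fun n => G n 0 / n.factorial := by
    rw [← summable_nat_add_iff 1]
    refine Summable.of_norm_bounded ((summable_geometric_of_lt_one hq0 hq).mul_left A) fun n => ?_
    have h1 := hB n 0 ⟨le_rfl, zero_le_one⟩
    rw [sub_zero, one_pow, mul_one] at h1
    rw [Real.norm_eq_abs, abs_div, abs_of_pos (hfac _), div_le_iff₀ (hfac _)]
    refine h1.trans ?_
    have hA : 0 ≤ A * q ^ n :=
      nonneg_of_mul_nonneg_right (by linarith [abs_nonneg (G (n + 1) 0)]) (hfac n)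
    have : (n.factorial : ℝ) ≤ (n + 1).factorial := by exact_mod_cast Nat.factorial_le (Nat.le_succ n)
    calc (n.factorial : ℝ) * A * q ^ n = A * q ^ n * n.factorial := by ring
      _ ≤ A * q ^ n * (n + 1).factorial := mul_le_mul_of_nonneg_left this hA
  refine (hsum.hasSum_iff_tendsto_nat).2 ?_
  rw [← tendsto_add_atTop_iff_nat 1, tendsto_iff_norm_sub_tendsto_zero]
  refine squeeze_zero (fun n => norm_nonneg _) (fun n => ?_)
    (by simpa using (tendsto_pow_atTop_nhds_zero_of_lt_one hq0 hq).const_mul A)
  rw [Real.norm_eq_abs, abs_sub_comm]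
  exact hr n

/-- Taylor's formula near the origin. -/
theorem taylor_small {G : ℕ → ℝ → ℝ} (n : ℕ) {u M : ℝ}
    (hG : ∀ i ≤ n, ∀ t ∈ uIcc 0 u, HasDerivAt (G i) (G (i + 1) t) t)
    (hM : ∀ t ∈ uIcc 0 u, |G (n + 1) t| ≤ M) :
    |G 0 u - ∑ i ∈ Finset.range (n + 1), G i 0 * u ^ i / i.factorial| ≤ M * |u| ^ (n + 1) := by
  have hmem : ∀ t ∈ Icc (0 : ℝ) 1, t * u ∈ uIcc 0 u := fun t ht => by
    rcases le_total 0 u with hu | hu
    · rw [uIcc_of_le hu]; exact ⟨mul_nonneg ht.1 hu, mul_le_of_le_one_left hu ht.2⟩
    · rw [uIcc_of_ge hu]; exact ⟨by nlinarith [ht.2], mul_nonpos_of_nonneg_of_nonpos ht.1 hu⟩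
  have h := taylor_remainder (G := fun i t => G i (t * u) * u ^ i) n (B := M * |u| ^ (n + 1))
    (fun i hi t ht => by
      refine (((hG i hi _ (hmem t ht)).comp t ((hasDerivAt_id t).mul_const u)).mul_const (u ^ i)).congr_deriv ?_
      rw [pow_succ]; ring)
    (fun t ht => by
      have h1 := hM _ (hmem t ht)
      have h2 : |(1 - t) ^ n| ≤ 1 := by
        rw [abs_pow]
        exact pow_le_one₀ (abs_nonneg _) (abs_le.2 ⟨by linarith [ht.2], by linarith [ht.1]⟩)
      have h3 : (1 : ℝ) ≤ n.factorial := by exact_mod_cast n.factorial_pos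
      rw [abs_div, abs_mul, abs_mul, Nat.abs_cast, abs_pow u]
      refine (div_le_self (by positivity) h3).trans ?_
      exact (mul_le_of_le_one_right (by positivity) h2).trans
        (mul_le_mul_of_nonneg_right h1 (by positivity)))
  simpa using h

/-! ### Random signs -/

/-- The sign attached to a Boolean. -/
def sgn (x : Bool) : ℝ := if x then 1 else -1

@[simp] theorem sgn_mul_self (x : Bool) : sgn x * sgn x = 1 := by cases x <;> norm_num [sgn]

theorem sgn_not (x : Bool) : sgn (!x) = -sgn x := by cases x <;> norm_num [sgn]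

/-- The sum over signs of one monomial. -/
theorem signs_monomial {m n : ℕ} (φ : Fin m → Fin n) (hmn : m ≤ n) :
    (∑ e : Fin n → Bool, (∏ j, sgn (e j)) * ∏ l, sgn (e (φ l))) =
      if Function.Bijective φ then (2 : ℝ) ^ n else 0 := by
  by_cases hs : Function.Surjective φ
  · have hb : Function.Bijective φ := hs.bijective_of_nat_card_le (by simpa using hmn)
    rw [if_pos hb]
    have h : ∀ e : Fin n → Bool, ∏ l, sgn (e (φ l)) = ∏ j, sgn (e j) := fun e =>
      Fintype.prod_bijective φ hb (fun l => sgn (e (φ l))) (fun j => sgn (e j)) fun _ => rfl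
    simp [h, ← Finset.prod_mul_distrib]
  · rw [if_neg fun hb => hs hb.2]
    simp only [Function.Surjective, not_forall, not_exists] at hs
    obtain ⟨j₀, hj₀⟩ := hs
    set T : (Fin n → Bool) → Fin n → Bool := fun e => Function.update e j₀ (!e j₀)
    have hT : Function.Involutive T := fun e => by simp [T]
    have hneg : ∀ e, (∏ j, sgn (T e j)) * ∏ l, sgn (T e (φ l)) =
        -((∏ j, sgn (e j)) * ∏ l, sgn (e (φ l))) := fun e => by
      have h1 : ∏ j, sgn (T e j) = -∏ j, sgn (e j) := by
        rw [← Finset.mul_prod_erase _ _ (Finset.mem_univ j₀),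
          ← Finset.mul_prod_erase _ (fun j => sgn (e j)) (Finset.mem_univ j₀), ← neg_mul]
        congr 1
        · simp [T, sgn_not]
        · exact Finset.prod_congr rfl fun j hj => by simp [T, Finset.ne_of_mem_erase hj]
      have h2 : ∏ l, sgn (T e (φ l)) = ∏ l, sgn (e (φ l)) :=
        Finset.prod_congr rfl fun l _ => by simp [T, hj₀ l]
      rw [h1, h2, neg_mul]
    have := Fintype.sum_bijective T hT.bijective (fun e => -((∏ j, sgn (e j)) * ∏ l, sgn (e (φ l))))
      (fun e => (∏ j, sgn (e j)) * ∏ l, sgn (e (φ l))) fun e => (hneg e).symm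
    rw [Finset.sum_neg_distrib] at this
    linarith

/-- The average over signs with as many factors as signs. -/
theorem signs_mean_eq {n : ℕ} (a : Fin n → Fin n → ℝ) :
    (∑ e : Fin n → Bool, (∏ j, sgn (e j)) * ∏ l, ∑ j, sgn (e j) * a l j) / 2 ^ n =
      ∑ p : Equiv.Perm (Fin n), ∏ l, a l (p l) := by
  classical
  simp only [Finset.prod_univ_sum, Fintype.piFinset_univ, Finset.mul_sum]
  rw [Finset.sum_comm, Finset.sum_div]
  have h : ∀ φ : Fin n → Fin n,
      (∑ e : Fin n → Bool, (∏ j, sgn (e j)) * ∏ l, sgn (e (φ l)) * a l (φ l)) / 2 ^ n =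
        if Function.Bijective φ then ∏ l, a l (φ l) else 0 := fun φ => by
    simp only [Finset.prod_mul_distrib, ← mul_assoc, ← Finset.sum_mul, signs_monomial φ le_rfl]
    split_ifs <;> simp
  simp only [h, ← Finset.sum_filter]
  refine Finset.sum_bij' (fun φ hφ => Equiv.ofBijective φ (Finset.mem_filter.1 hφ).2)
    (fun p _ => (p : Fin n → Fin n)) (fun _ _ => Finset.mem_univ _)
    (fun p _ => Finset.mem_filter.2 ⟨Finset.mem_univ _, p.bijective⟩) (fun φ hφ => rfl)
    (fun p _ => Equiv.ext fun _ => rfl) fun φ hφ => rfl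

/-- The average over signs with fewer factors than signs. -/
theorem signs_mean_zero {m n : ℕ} (hmn : m < n) (a : Fin m → Fin n → ℝ) :
    (∑ e : Fin n → Bool, (∏ j, sgn (e j)) * ∏ l, ∑ j, sgn (e j) * a l j) / 2 ^ n = 0 := by
  simp only [Finset.prod_univ_sum, Fintype.piFinset_univ, Finset.mul_sum]
  rw [Finset.sum_comm, Finset.sum_eq_zero, zero_div]
  intro φ _
  simp only [Finset.prod_mul_distrib, ← mul_assoc, ← Finset.sum_mul, signs_monomial φ hmn.le]
  rw [if_neg, zero_mul]
  intro hb
  have := Fintype.card_of_bijective hb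
  simp at this
  omega

end Vale.Agent.P168
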