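import Vale.Agent.P168.Defs

/-!
# P168: elementary properties of the recursion of the trial functional
-/

open MeasureTheory Real

namespace Vale.Agent.P168

variable {Z : Type} [MeasurableSpace Z] {μ : Measure Z}

instance : IsProbabilityMeasure unif :=
  ⟨by simp [unif, Real.volume_Icc]⟩

theorem measurable_cons_pair {r : ℕ} :
    Measurable fun q : Z × (Fin r → Z) => (Fin.cons q.1 q.2 : Fin (r + 1) → Z) :=
  measurable_pi_lambda _ fun i => by
    induction i using Fin.cases with
    | zero => simpa using measurable_fst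
    | succ j => simp only [Fin.cons_succ]; exact (measurable_pi_apply j).comp measurable_snd

/-- The recursion depends measurably on a parameter. -/
theorem measurable_recLog [IsProbabilityMeasure μ] :
    ∀ (r : ℕ) (m : Fin r → ℝ) {P : Type} [MeasurableSpace P] (L : P → (Fin r → Z) → ℝ),
      Measurable (fun q : P × (Fin r → Z) => L q.1 q.2) →
      Measurable fun p => recLog μ r m (L p)
  | 0, m, P, _, L, hL => by
    simpa [recLog, Function.comp_def] using hL.comp (measurable_id.prodMk measurable_const)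
  | r + 1, m, P, _, L, hL => by
    have h1 : Measurable fun q : (P × Z) × (Fin r → Z) => L q.1.1 (Fin.cons q.1.2 q.2) :=
      hL.comp ((measurable_fst.comp measurable_fst).prodMk (measurable_cons_pair.comp
        ((measurable_snd.comp measurable_fst).prodMk measurable_snd)))
    have h2 := measurable_recLog r (fun p => m p.succ) (fun q : P × Z => fun w => L q.1 (Fin.cons q.2 w)) h1
    simp only [recLog]
    exact (Real.measurable_log.comp
      ((h2.const_mul (m 0)).exp.stronglyMeasurable.integral_prod_right').measurable).div_const _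

theorem measurable_recLog_inner [IsProbabilityMeasure μ] {r : ℕ} (m : Fin r → ℝ)
    {L : (Fin (r + 1) → Z) → ℝ} (hL : Measurable L) :
    Measurable fun z => recLog μ r m fun w => L (Fin.cons z w) :=
  measurable_recLog r m (fun z w => L (Fin.cons z w)) (hL.comp measurable_cons_pair)

theorem recLog_abs_le [IsProbabilityMeasure μ] :
    ∀ (r : ℕ) (m : Fin r → ℝ) (L : (Fin r → Z) → ℝ) (B : ℝ), (∀ p, 0 < m p) → Measurable L →
      (∀ w, |L w| ≤ B) → |recLog μ r m L| ≤ B
  | 0, _, _, _, _, _, hB => hB _
  | r + 1, m, L, B, hm, hL, hB => by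
    have ih : ∀ z, |recLog μ r (fun p => m p.succ) fun w => L (Fin.cons z w)| ≤ B := fun z =>
      recLog_abs_le r _ _ B (fun p => hm p.succ)
        (hL.comp (measurable_cons_pair.comp (measurable_const.prodMk measurable_id))) fun w => hB _
    set g := fun z => exp (m 0 * recLog μ r (fun p => m p.succ) fun w => L (Fin.cons z w)) with hg
    have hgm : Measurable g := ((measurable_recLog_inner _ hL).const_mul _).exp
    have hlo : ∀ z, exp (-(m 0 * B)) ≤ g z := fun z =>
      exp_le_exp.2 (by nlinarith [(abs_le.1 (ih z)).1, hm 0])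
    have hhi : ∀ z, g z ≤ exp (m 0 * B) := fun z =>
      exp_le_exp.2 (by nlinarith [(abs_le.1 (ih z)).2, hm 0])
    have hgi : Integrable g μ := Integrable.of_bound hgm.aestronglyMeasurable (exp (m 0 * B))
      (ae_of_all _ fun z => by rw [norm_of_nonneg (exp_pos _).le]; exact hhi z)
    have h1 : exp (-(m 0 * B)) ≤ ∫ z, g z ∂μ := by
      simpa using integral_mono (integrable_const (exp (-(m 0 * B)))) hgi hlo
    have h2 : ∫ z, g z ∂μ ≤ exp (m 0 * B) := by
      simpa using integral_mono hgi (integrable_const (exp (m 0 * B))) hhi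
    have hpos : 0 < ∫ z, g z ∂μ := (exp_pos _).trans_le h1
    simp only [recLog]
    rw [abs_le, le_div_iff₀ (hm 0), div_le_iff₀ (hm 0)]
    constructor
    · rw [show -B * m 0 = -(m 0 * B) by ring]
      exact (le_log_iff_exp_le hpos).2 h1
    · rw [mul_comm B]
      exact (log_le_iff_le_exp hpos).2 h2

/-- A pointwise inequality up to a constant passes through the recursion. -/
theorem recLog_le_add [IsProbabilityMeasure μ] :
    ∀ (r : ℕ) (m : Fin r → ℝ) (L L' : (Fin r → Z) → ℝ) (B B' d : ℝ), (∀ p, 0 < m p) → Measurable L →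
      Measurable L' → (∀ w, |L w| ≤ B) → (∀ w, |L' w| ≤ B') → (∀ w, L w ≤ L' w + d) →
      recLog μ r m L ≤ recLog μ r m L' + d
  | 0, _, _, _, _, _, _, _, _, _, _, _, h => h _
  | r + 1, m, L, L', B, B', d, hm, hL, hL', hB, hB', h => by
    have hc : ∀ z : Z, Measurable fun w : Fin r → Z => (Fin.cons z w : Fin (r + 1) → Z) := fun z =>
      measurable_cons_pair.comp (measurable_const.prodMk measurable_id)
    have ih : ∀ z, (recLog μ r (fun p => m p.succ) fun w => L (Fin.cons z w)) ≤
        (recLog μ r (fun p => m p.succ) fun w => L' (Fin.cons z w)) + d := fun z =>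
      recLog_le_add r _ _ _ B B' d (fun p => hm p.succ) (hL.comp (hc z)) (hL'.comp (hc z))
        (fun w => hB _) (fun w => hB' _) fun w => h _
    have bd : ∀ (L : (Fin (r + 1) → Z) → ℝ) (B : ℝ), Measurable L → (∀ w, |L w| ≤ B) →
        Integrable (fun z => exp (m 0 * recLog μ r (fun p => m p.succ) fun w => L (Fin.cons z w))) μ ∧
          0 < ∫ z, exp (m 0 * recLog μ r (fun p => m p.succ) fun w => L (Fin.cons z w)) ∂μ := by
      intro L B hL hB
      have hi : ∀ z, |recLog μ r (fun p => m p.succ) fun w => L (Fin.cons z w)| ≤ B := fun z =>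
        recLog_abs_le r _ _ B (fun p => hm p.succ) (hL.comp (hc z)) fun w => hB _
      have hgi : Integrable
          (fun z => exp (m 0 * recLog μ r (fun p => m p.succ) fun w => L (Fin.cons z w))) μ :=
        Integrable.of_bound (((measurable_recLog_inner _ hL).const_mul _).exp).aestronglyMeasurable
          (exp (m 0 * B)) (ae_of_all _ fun z => by
            rw [norm_of_nonneg (exp_pos _).le]
            exact exp_le_exp.2 (by nlinarith [(abs_le.1 (hi z)).2, hm 0]))
      refine ⟨hgi, (exp_pos (-(m 0 * B))).trans_le ?_⟩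
      simpa using integral_mono (integrable_const (exp (-(m 0 * B)))) hgi fun z =>
        exp_le_exp.2 (by nlinarith [(abs_le.1 (hi z)).1, hm 0])
    obtain ⟨i1, p1⟩ := bd L B hL hB
    obtain ⟨i2, p2⟩ := bd L' B' hL' hB'
    simp only [recLog]
    rw [div_le_iff₀ (hm 0), add_mul, div_mul_cancel₀ _ (hm 0).ne', log_le_iff_le_exp p1, exp_add,
      exp_log p2, ← integral_mul_const]
    refine integral_mono i1 (i2.mul_const _) fun z => ?_
    change exp _ ≤ exp _ * exp _
    rw [← exp_add]
    exact exp_le_exp.2 (by nlinarith [ih z, hm 0])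

theorem recLog_lip [IsProbabilityMeasure μ] {r : ℕ} {m : Fin r → ℝ} {L L' : (Fin r → Z) → ℝ}
    {B B' d : ℝ} (hm : ∀ p, 0 < m p) (hL : Measurable L) (hL' : Measurable L')
    (hB : ∀ w, |L w| ≤ B) (hB' : ∀ w, |L' w| ≤ B') (h : ∀ w, |L w - L' w| ≤ d) :
    |recLog μ r m L - recLog μ r m L'| ≤ d := by
  rw [abs_le]
  constructor
  · have := recLog_le_add r m L' L B' B d hm hL' hL hB' hB (μ := μ) fun w => by
      linarith [(abs_le.1 (h w)).1]
    linarith
  · have := recLog_le_add r m L L' B B' d hm hL hL' hB hB' (μ := μ) fun w => by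
      linarith [(abs_le.1 (h w)).2]
    linarith

/-! ### The functional `T` -/

variable {ι : Type} [Fintype ι] {r : ℕ} {m : Fin r → ℝ} {x : (Fin (r + 1) → ℝ) → ℝ}
  {g g' : (ι → ℝ) → ℝ} {B B' d : ℝ}

omit [Fintype ι] in
theorem measurable_trial_fun (hx : Measurable x) (hg : Measurable g) :
    Measurable fun q : (ι → ℝ) × (Fin r → ι → ℝ) =>
      g fun a => x (Fin.cons (q.1 a) fun p => q.2 p a) := by
  refine hg.comp (measurable_pi_lambda _ fun a => hx.comp (measurable_pi_lambda _ fun i => ?_))
  induction i using Fin.cases with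
  | zero => simp only [Fin.cons_zero]; exact (measurable_pi_apply a).comp measurable_fst
  | succ j =>
    simp only [Fin.cons_succ]
    exact (measurable_pi_apply a).comp ((measurable_pi_apply j).comp measurable_snd)

theorem integrable_trial (hm : ∀ p, 0 < m p) (hx : Measurable x) (hxb : ∀ w, x w ∈ Set.Icc (-1 : ℝ) 1)
    (hg : Measurable g) (hB : ∀ a : ι → ℝ, (∀ i, a i ∈ Set.Icc (-1 : ℝ) 1) → |g a| ≤ B) :
    Integrable (fun w₀ : ι → ℝ => recLog (Measure.pi fun _ : ι => unif) r m
      fun w => g fun a => x (Fin.cons (w₀ a) fun p => w p a)) (Measure.pi fun _ : ι => unif) :=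
  Integrable.of_bound (measurable_recLog r m _ (measurable_trial_fun hx hg)).aestronglyMeasurable B
    (ae_of_all _ fun _ => recLog_abs_le r m _ B hm
      ((measurable_trial_fun hx hg).comp (measurable_const.prodMk measurable_id))
      fun _ => hB _ fun _ => hxb _)

theorem trialT_abs_le (hm : ∀ p, 0 < m p) (hx : Measurable x) (hxb : ∀ w, x w ∈ Set.Icc (-1 : ℝ) 1)
    (hg : Measurable g) (hB : ∀ a : ι → ℝ, (∀ i, a i ∈ Set.Icc (-1 : ℝ) 1) → |g a| ≤ B) :
    |trialT ι r m x g| ≤ B := by
  unfold trialT
  have := norm_integral_le_of_norm_le_const (μ := Measure.pi fun _ : ι => unif) (C := B)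
    (f := fun w₀ : ι → ℝ => recLog (Measure.pi fun _ : ι => unif) r m
      fun w => g fun a => x (Fin.cons (w₀ a) fun p => w p a))
    (ae_of_all _ fun _ => recLog_abs_le r m _ B hm
      ((measurable_trial_fun hx hg).comp (measurable_const.prodMk measurable_id))
      fun _ => hB _ fun _ => hxb _)
  simpa using this

theorem trialT_lip (hm : ∀ p, 0 < m p) (hx : Measurable x) (hxb : ∀ w, x w ∈ Set.Icc (-1 : ℝ) 1)
    (hg : Measurable g) (hg' : Measurable g')
    (hB : ∀ a : ι → ℝ, (∀ i, a i ∈ Set.Icc (-1 : ℝ) 1) → |g a| ≤ B)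
    (hB' : ∀ a : ι → ℝ, (∀ i, a i ∈ Set.Icc (-1 : ℝ) 1) → |g' a| ≤ B')
    (hd : ∀ a : ι → ℝ, (∀ i, a i ∈ Set.Icc (-1 : ℝ) 1) → |g a - g' a| ≤ d) :
    |trialT ι r m x g - trialT ι r m x g'| ≤ d := by
  unfold trialT
  rw [← integral_sub (integrable_trial hm hx hxb hg hB) (integrable_trial hm hx hxb hg' hB')]
  rw [← Real.norm_eq_abs]
  refine (norm_integral_le_of_norm_le_const (μ := Measure.pi fun _ : ι => unif) (C := d)
    (ae_of_all _ fun w₀ => ?_)).trans
    (le_of_eq (by rw [probReal_univ, mul_one]))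
  exact recLog_lip hm ((measurable_trial_fun hx hg).comp (measurable_const.prodMk measurable_id))
    ((measurable_trial_fun hx hg').comp (measurable_const.prodMk measurable_id))
    (fun _ => hB _ fun _ => hxb _) (fun _ => hB' _ fun _ => hxb _) fun _ => hd _ fun _ => hxb _

end Vale.Agent.P168
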