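import Vale.Agent.P168.Lower.Main
import Vale.Agent.P168.Lower.Trunc
import Vale.Agent.P168.Lower.Dev
import Vale.Agent.P168.Lower.Series
import Vale.Agent.P168.Lower.Real
import Vale.Agent.P168.Perturb.Kinds
import Vale.Agent.P168.Perturb.Energy
import Vale.Agent.P168.Upper.Below
import Vale.Agent.P168.Tree.Totals

/-!
# P168: the formula from the concentration, cavity and interpolation statements
-/

namespace Vale.Agent.P168

/-- The lower bound from concentration and the cavity comparison. -/
theorem lowerStmt_of (hconc : ConcStmt) (hcav : CavityStmt) : LowerStmt :=
  trunc (lowerFin_of hconc energyStmt kindsStmt seriesStmt realStmt hcav devStmt)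

/-- The formula from the three remaining statements. -/
theorem formulaStmt_of (hconc : ConcStmt) (hcav : CavityStmt) (hup : UpperStmt) : FormulaStmt :=
  formula_of belowStmt hup (lowerStmt_of hconc hcav)

end Vale.Agent.P168
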