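import Vale.Agent.P168.Defs

/-!
# P168: the two bounds and the formula from them
-/

open Filter

namespace Vale.Agent.P168

/-- The trial values are bounded below. -/
def BelowStmt : Prop :=
  ∀ (K : ℕ), 2 ≤ K → ∀ (lam : ℝ), 0 < lam → ∀ M : Model K, M.Admissible →
    BddBelow (trialValues M lam)

/-- Every trial value is an asymptotic upper bound. -/
def UpperStmt : Prop :=
  ∀ (K : ℕ), Even K → 2 ≤ K → ∀ (lam : ℝ), 0 < lam → ∀ M : Model K, M.Admissible →
    ∀ v ∈ trialValues M lam, ∀ ε : ℝ, 0 < ε → ∀ᶠ N in atTop, pressure M lam N ≤ v + ε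

/-- Some trial value is almost reached from below. -/
def LowerStmt : Prop :=
  ∀ (K : ℕ), 2 ≤ K → ∀ (lam : ℝ), 0 < lam → ∀ M : Model K, M.Admissible →
    ∀ ε : ℝ, 0 < ε → ∀ᶠ N in atTop, ∃ v ∈ trialValues M lam, v ≤ pressure M lam N + ε

/-- The formula from the two bounds. -/
theorem formula_of (hb : BelowStmt) (hu : UpperStmt) (hl : LowerStmt) : FormulaStmt := by
  intro K hK h2 lam hlam M hM
  have hne : (trialValues M lam).Nonempty :=
    ⟨_, 0, Fin.elim0, fun _ => 0, fun p => p.elim0, fun p => p.elim0, measurable_const,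
      fun _ => ⟨by norm_num, by norm_num⟩, rfl⟩
  have hbdd := hb K h2 lam hlam M hM
  refine ⟨sInf (trialValues M lam), ?_, isGLB_csInf hne hbdd⟩
  refine Metric.tendsto_nhds.2 fun ε hε => ?_
  obtain ⟨w, hw, hwε⟩ := exists_lt_of_csInf_lt hne
    (lt_add_of_pos_right (sInf (trialValues M lam)) (by positivity : (0 : ℝ) < ε / 4))
  filter_upwards [hu K hK h2 lam hlam M hM w hw (ε / 4) (by positivity),
    hl K h2 lam hlam M hM (ε / 4) (by positivity)] with N h1 ⟨v, hv, hv'⟩
  have h3 := csInf_le hbdd hv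
  rw [Real.dist_eq, abs_lt]
  constructor <;> linarith

end Vale.Agent.P168
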