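import Mathlib

/-!
# P168: the pressure of a diluted spin glass and the Mezard-Parisi trial functional
-/

open MeasureTheory

namespace Vale.Agent.P168

variable {K : ℕ}

/-- The spin value of a Boolean. -/
def spin (s : Bool) : ℝ := if s then 1 else -1

/-- The mean over a finite type. -/
noncomputable def mean {α : Type*} [Fintype α] (f : α → ℝ) : ℝ := (∑ a, f a) / Fintype.card α

/-- The weight of `n` under the Poisson law of mean `c`. -/
noncomputable def pois (c : ℝ) (n : ℕ) : ℝ := Real.exp (-c) * c ^ n / n.factorial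

/-- One random clause: the pair `(a, b)` and the functions `f_1, ..., f_K`. -/
abbrev Clause (K : ℕ) : Type := (ℝ × ℝ) × (Fin K → Bool → ℝ)

/-- The interaction `θ = log (a (1 + b f_1 ⋯ f_K))`. -/
noncomputable def theta (c : Clause K) (s : Fin K → Bool) : ℝ :=
  Real.log (c.1.1 * (1 + c.1.2 * ∏ j, c.2 j (s j)))

/-- The laws of the model: of a clause `(a, b, f_1, ..., f_K)` and of the field `h`. -/
structure Model (K : ℕ) where
  /-- the law of a clause -/
  clause : Measure (Clause K)
  /-- the law of `h` -/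
  field : Measure ℝ

/-- The hypotheses on a model: `b` is independent of the independent, identically distributed `f_j`,
while `a` may depend on all of them. -/
structure Model.Admissible (M : Model K) : Prop where
  clause_prob : IsProbabilityMeasure M.clause
  field_prob : IsProbabilityMeasure M.field
  a_pos : ∀ᵐ c ∂M.clause, 0 < c.1.1
  b_lt : ∀ᵐ c ∂M.clause, |c.1.2| < 1
  f_le : ∀ᵐ c ∂M.clause, ∀ j s, |c.2 j s| ≤ 1
  indep : ∃ func : Measure (Bool → ℝ), IsProbabilityMeasure func ∧
    M.clause.map (fun c => (c.1.2, c.2))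
      = (M.clause.map fun c => c.1.2).prod (Measure.pi fun _ : Fin K => func)
  positivity : ∀ n : ℕ, 1 ≤ n → 0 ≤ ∫ c, (-c.1.2) ^ n ∂M.clause
  theta_int : ∀ s, Integrable (fun c => theta c s) M.clause
  field_int : Integrable (fun h => h) M.field

/-- The Hamiltonian of given clauses, sites and fields. -/
noncomputable def ham {n N : ℕ} (θ : Fin n → Clause K) (i : Fin n → Fin K → Fin N) (h : Fin N → ℝ)
    (σ : Fin N → Bool) : ℝ :=
  ∑ k, theta (θ k) (fun j => σ (i k j)) + ∑ v, h v * spin (σ v)

/-- The pressure `F_N`. -/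
noncomputable def pressure (M : Model K) (lam : ℝ) (N : ℕ) : ℝ :=
  (∑' n, pois (lam * N) n *
    ∫ θ, (∫ h, mean (fun i : Fin n → Fin K → Fin N => Real.log (∑ σ, Real.exp (ham θ i h σ)))
      ∂Measure.pi fun _ : Fin N => M.field) ∂Measure.pi fun _ : Fin n => M.clause) / N

/-- The uniform law on the unit interval. -/
noncomputable def unif : Measure ℝ := volume.restrict (Set.Icc 0 1)

/-- `log Y_0` from `log Y_r` as a function of the variables of the levels `1, ..., r`. -/
noncomputable def recLog {Z : Type} [MeasurableSpace Z] (μ : Measure Z) :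
    ∀ r : ℕ, (Fin r → ℝ) → ((Fin r → Z) → ℝ) → ℝ
  | 0, _, L => L Fin.elim0
  | r + 1, m, L =>
    Real.log (∫ z, Real.exp (m 0 * recLog μ r (fun p => m p.succ) fun w => L (Fin.cons z w)) ∂μ) / m 0

/-- `T Y` for `Y` built from the messages in `ι` and independent randomness that is kept fixed. -/
noncomputable def trialT (ι : Type) [Fintype ι] (r : ℕ) (m : Fin r → ℝ)
    (x : (Fin (r + 1) → ℝ) → ℝ) (logY : (ι → ℝ) → ℝ) : ℝ :=
  ∫ w₀, recLog (Measure.pi fun _ : ι => unif) r m
    (fun w => logY fun a => x (Fin.cons (w₀ a) fun p => w p a)) ∂Measure.pi fun _ : ι => unif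

/-- The probability of a spin under a message. -/
noncomputable def msgW (x : ℝ) (s : Bool) : ℝ := (1 + x * spin s) / 2

/-- `log U` for given clauses, positions, field and messages. -/
noncomputable def logU {n : ℕ} (θ : Fin n → Clause K) (ℓ : Fin n → Fin K) (h : ℝ)
    (x : Fin n × Fin K → ℝ) : ℝ :=
  Real.log (∑ e : Bool, Real.exp (h * spin e) * ∏ k, ∑ s : Fin K → Bool,
    if s (ℓ k) = e then Real.exp (theta (θ k) s) * ∏ j ∈ Finset.univ.erase (ℓ k), msgW (x (k, j)) (s j)
    else 0)

/-- `log V` for given clauses and messages. -/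
noncomputable def logV {n : ℕ} (θ : Fin n → Clause K) (x : Fin n × Fin K → ℝ) : ℝ :=
  Real.log (∏ k, ∑ s : Fin K → Bool, Real.exp (theta (θ k) s) * ∏ j, msgW (x (k, j)) (s j))

/-- The value `T U - T V` of one trial order parameter. -/
noncomputable def trialValue (M : Model K) (lam : ℝ) (r : ℕ) (m : Fin r → ℝ)
    (x : (Fin (r + 1) → ℝ) → ℝ) : ℝ :=
  (∑' n, pois (K * lam) n * ∫ θ, (∫ h, mean (fun ℓ : Fin n → Fin K =>
      trialT (Fin n × Fin K) r m x (logU θ ℓ h)) ∂M.field) ∂Measure.pi fun _ : Fin n => M.clause)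
    - ∑' n, pois ((K - 1) * lam) n *
      ∫ θ, trialT (Fin n × Fin K) r m x (logV θ) ∂Measure.pi fun _ : Fin n => M.clause

/-- All values of the trial functional, over every depth. -/
def trialValues (M : Model K) (lam : ℝ) : Set ℝ :=
  {v | ∃ (r : ℕ) (m : Fin r → ℝ) (x : (Fin (r + 1) → ℝ) → ℝ),
    (∀ p, m p ∈ Set.Ioo (0 : ℝ) 1) ∧ StrictMono m ∧ Measurable x ∧ (∀ w, x w ∈ Set.Icc (-1 : ℝ) 1) ∧
      trialValue M lam r m x = v}

/-- The Mezard-Parisi formula. -/
def FormulaStmt : Prop :=
  ∀ (K : ℕ), Even K → 2 ≤ K → ∀ (lam : ℝ), 0 < lam → ∀ M : Model K, M.Admissible →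
    ∃ L : ℝ, Filter.Tendsto (pressure M lam) Filter.atTop (nhds L) ∧ IsGLB (trialValues M lam) L

end Vale.Agent.P168
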